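import Vale.Agent.P207Z.Lift.Pb

/-!
# P207: linear cocycles over contractions of a ball, definitions
-/

set_option linter.all false

open Set Filter Topology Metric
open scoped ContDiff

noncomputable section

namespace Vale.Agent.P207Z.Lift

variable {E F : Type} [NormedAddCommGroup E] [NormedSpace ℝ E] [NormedAddCommGroup F]
  [NormedSpace ℝ F]

/-- smooth on the ball, with derivatives of order at most `j` bounded by `K` -/
def Bd (ρ : ℝ) (j : ℕ) (s : E → F) (K : ℝ) : Prop := ∀ u ∈ ball (0 : E) ρ, Pb j s u K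

/-- a sequence of contractions `θ n` of a ball and of linear maps `B n u` -/
structure Dat (ρ q M : ℝ) (c : ℕ → ℝ) (θ : ℕ → E → E) (B : ℕ → E → F →L[ℝ] F) : Prop where
  zero : ∀ n, θ n 0 = 0
  sm : ∀ n, ∀ u ∈ ball (0 : E) ρ, ContDiffAt ℝ ∞ (θ n) u
  der : ∀ n, ∀ u ∈ ball (0 : E) ρ, ‖fderiv ℝ (θ n) u‖ ≤ q
  bθ : ∀ n j, Bd ρ j (fderiv ℝ (θ n)) (c j)
  b0 : ∀ n, ∀ u ∈ ball (0 : E) ρ, ‖B n u‖ ≤ M
  bB : ∀ n j, Bd ρ j (B n) (c j)

/-- pull back from the time `k + 1` to the time `k` -/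
def Tr (θ : ℕ → E → E) (B : ℕ → E → F →L[ℝ] F) (k : ℕ) (s : E → F) (u : E) : F :=
  B k u (s (θ k u))

/-- `It θ B k n` : pull back from the time `k + n` to the time `k` -/
def It (θ : ℕ → E → E) (B : ℕ → E → F →L[ℝ] F) : ℕ → ℕ → (E → F) → E → F
  | _, 0, s => s
  | k, n + 1, s => Tr θ B k (It θ B (k + 1) n s)

/-- the equivariant sections which have the jets of the `p n` -/
def lift (θ : ℕ → E → E) (B : ℕ → E → F →L[ℝ] F) (p : ℕ → E → F) (n : ℕ) (u : E) : F :=
  limUnder atTop fun k => It θ B n k (p (n + k)) u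

end Vale.Agent.P207Z.Lift
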