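import Vale.Agent.P207Z.Lift.Gain

/-!
# P207: linear cocycles over contractions of a ball: distortion, lifts of jets, fast jets
-/

set_option linter.all false

open Set Filter Topology Metric
open scoped ContDiff

noncomputable section

namespace Vale.Agent.P207Z.Lift

variable {E F : Type} [NormedAddCommGroup E] [NormedSpace ℝ E] [NormedAddCommGroup F]
  [NormedSpace ℝ F] {ρ q M : ℝ} {c : ℕ → ℝ} {θ : ℕ → E → E} {B : ℕ → E → F →L[ℝ] F}

theorem Bd.sub {j : ℕ} {s s' : E → F} {K K' : ℝ} (h : Bd ρ j s K) (h' : Bd ρ j s' K') :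
    Bd ρ j (fun u => s u - s' u) (K + K') := fun u hu => (h u hu).sub (h' u hu)

theorem Bd.add {j : ℕ} {s s' : E → F} {K K' : ℝ} (h : Bd ρ j s K) (h' : Bd ρ j s' K') :
    Bd ρ j (fun u => s u + s' u) (K + K') := fun u hu => (h u hu).add (h' u hu)

/-- one step -/
theorem step (ρ : ℝ) (hq : 0 < q) (hq1 : q < 1) (hM : 0 < M) (c : ℕ → ℝ) (j : ℕ) :
    ∃ C : ℝ, 0 ≤ C ∧ ∀ (θ : ℕ → E → E) (B : ℕ → E → F →L[ℝ] F), Dat ρ q M c θ B →
      ∀ (k : ℕ) (s : E → F) (K : ℝ), Bd ρ j s K → Bd ρ j (Tr θ B k s) (C * K) := by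
  obtain ⟨C, h0, h⟩ := gain (E := E) (F := F) ρ hq hq1 hM c j 0
  refine ⟨C * M, by positivity, fun θ B hd k s K hs => ?_⟩
  have := h θ B hd k 1 s K van_zero hs
  simpa [It] using this

/-- the increments of the approximations of a lift -/
theorem incr (ρ : ℝ) (hq : 0 < q) (hq1 : q < 1) (hM : 0 < M) (c : ℕ → ℝ) (N : ℕ) {g : ℝ}
    (hg : 0 < g) (j : ℕ) :
    ∃ C : ℝ, 0 ≤ C ∧ ∀ (θ : ℕ → E → E) (B : ℕ → E → F →L[ℝ] F), Dat ρ q M c θ B →
      ∀ p : ℕ → E → F, (∀ k, Van N (fun u => Tr θ B k (p (k + 1)) u - p k u) 0) →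
        ∀ (n : ℕ) (a : ℝ), (∀ k, Bd ρ (j + N) (p (n + k)) (a * g ^ k)) → ∀ k,
          Bd ρ j (fun u => It θ B n (k + 1) (p (n + (k + 1))) u - It θ B n k (p (n + k)) u)
            (C * a * (M * q ^ N * g) ^ k) := by
  obtain ⟨C, h0, h⟩ := gain (E := E) (F := F) ρ hq hq1 hM c j N
  obtain ⟨C', h0', h'⟩ := step (E := E) (F := F) ρ hq hq1 hM c (j + N)
  refine ⟨C * (C' * g + 1), by positivity, fun θ B hd p hv n a hb k => ?_⟩
  have h1 := h θ B hd n k _ _ (hv (n + k)) ((h' θ B hd (n + k) _ _ (hb (k + 1))).sub (hb k))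
  rw [It_sub, ← It_succ'] at h1
  refine h1.mono le_rfl (le_of_eq ?_)
  rw [mul_pow _ g, pow_succ]
  ring

theorem shift_bd {g : ℝ} {p : ℕ → E → F} (hb : ∀ i, ∃ a, ∀ k, Bd ρ i (p k) (a * g ^ k)) (n i : ℕ) :
    ∃ a, ∀ k, Bd ρ i (p (n + k)) (a * g ^ k) := by
  obtain ⟨a, ha⟩ := hb i
  exact ⟨a * g ^ n, fun k => (ha (n + k)).mono le_rfl (by rw [pow_add, mul_assoc])⟩

theorem lift_lim [CompleteSpace F] (h : Dat ρ q M c θ B) (hq : 0 < q) (hq1 : q < 1)
    (hM : 0 < M) {N : ℕ} {g : ℝ} (hg : 0 < g) (hN : M * q ^ N * g < 1) {p : ℕ → E → F}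
    (hv : ∀ k, Van N (fun u => Tr θ B k (p (k + 1)) u - p k u) 0)
    (hb : ∀ i, ∃ a, ∀ k, Bd ρ i (p k) (a * g ^ k)) (n : ℕ) {u : E} (hu : u ∈ ball (0 : E) ρ) :
    Tendsto (fun k => It θ B n k (p (n + k)) u) atTop (𝓝 (lift θ B p n u)) := by
  obtain ⟨C, -, hC⟩ := incr (E := E) (F := F) ρ hq hq1 hM c N hg 0
  obtain ⟨a, ha⟩ := shift_bd hb n (0 + N)
  refine CauchySeq.tendsto_limUnder (cauchySeq_of_le_geometric _ (C * a) hN fun k => ?_)
  rw [dist_comm, dist_eq_norm]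
  exact (hC θ B h p hv n a ha k u hu).norm_le

theorem lift_der [CompleteSpace F] (h : Dat ρ q M c θ B) (hq : 0 < q) (hq1 : q < 1)
    (hM : 0 < M) {N : ℕ} {g : ℝ} (hg : 0 < g) (hN : M * q ^ N * g < 1) {p : ℕ → E → F}
    (hv : ∀ k, Van N (fun u => Tr θ B k (p (k + 1)) u - p k u) 0)
    (hb : ∀ i, ∃ a, ∀ k, Bd ρ i (p k) (a * g ^ k)) (n j : ℕ) :
    ContDiffOn ℝ j (lift θ B p n) (ball 0 ρ) ∧ ∀ i ≤ j, ∀ u ∈ ball (0 : E) ρ,
      Tendsto (fun k => iteratedFDeriv ℝ i (It θ B n k (p (n + k))) u)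
        atTop (𝓝 (iteratedFDeriv ℝ i (lift θ B p n) u)) := by
  obtain ⟨C, -, hC⟩ := incr (E := E) (F := F) ρ hq hq1 hM c N hg j
  obtain ⟨a, ha⟩ := shift_bd hb n (j + N)
  have hs : ∀ k, ∀ u ∈ ball (0 : E) ρ, ContDiffAt ℝ ∞ (It θ B n k (p (n + k))) u := fun k =>
    h.it_sm hq1.le (fun u hu => (ha k u hu).sm) n k
  refine An.contDiffOn_of_summable j (g := fun k => It θ B n k (p (n + k)))
    (u := fun k => C * a * (M * q ^ N * g) ^ k) isOpen_ball
    (fun k u hu => (cda (hs k u hu) j).contDiffWithinAt)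
    ((summable_geometric_of_lt_one (by positivity) hN).mul_left _) (fun i hi k u hu => ?_)
    fun u hu => lift_lim h hq hq1 hM hg hN hv hb n hu
  have := (hC θ B h p hv n a ha k u hu).bd i hi
  rwa [fun_iteratedFDeriv_sub_apply (cda (hs _ u hu) i) (cda (hs _ u hu) i)] at this

/-- **Lifts.** -/
theorem lift_spec [CompleteSpace F] (h : Dat ρ q M c θ B) (hρ : 0 < ρ) (hq : 0 < q) (hq1 : q < 1)
    (hM : 0 < M) {N : ℕ} {g : ℝ} (hg : 0 < g) (hN : M * q ^ N * g < 1) {p : ℕ → E → F}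
    (hv : ∀ k, Van N (fun u => Tr θ B k (p (k + 1)) u - p k u) 0)
    (hb : ∀ i, ∃ a, ∀ k, Bd ρ i (p k) (a * g ^ k)) (n : ℕ) :
    (∀ u ∈ ball (0 : E) ρ, ContDiffAt ℝ ∞ (lift θ B p n) u) ∧
      (∀ u ∈ ball (0 : E) ρ, lift θ B p n u = Tr θ B n (lift θ B p (n + 1)) u) ∧
      Van N (fun u => lift θ B p n u - p n u) 0 ∧
      ∀ i, ∀ u ∈ ball (0 : E) ρ, Tendsto (fun k => iteratedFDeriv ℝ i (It θ B n k (p (n + k))) u)
        atTop (𝓝 (iteratedFDeriv ℝ i (lift θ B p n) u)) := by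
  have hd := lift_der h hq hq1 hM hg hN hv hb n
  have h1 : ∀ u ∈ ball (0 : E) ρ, ContDiffAt ℝ ∞ (lift θ B p n) u := fun u hu =>
    (contDiffOn_infty.2 fun j => (hd j).1).contDiffAt (isOpen_ball.mem_nhds hu)
  have h4 := fun i => (hd i).2 i le_rfl
  have h0 : (0 : E) ∈ ball (0 : E) ρ := mem_ball_self hρ
  have hp : ∀ k, ContDiffAt ℝ ∞ (p k) 0 := fun k => by
    obtain ⟨a, ha⟩ := hb 0
    exact (ha k 0 h0).sm
  refine ⟨h1, fun u hu => ?_, fun i hi => ?_, h4⟩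
  · have a1 := (tendsto_add_atTop_iff_nat 1).2 (lift_lim h hq hq1 hM hg hN hv hb n hu)
    have a2 := ((B n u).continuous.tendsto _).comp
      (lift_lim h hq hq1 hM hg hN hv hb (n + 1) (h.maps hq1.le n hu))
    refine tendsto_nhds_unique a1 (a2.congr fun k => ?_)
    rw [show n + (k + 1) = n + 1 + k by omega]
    rfl
  · rw [fun_iteratedFDeriv_sub_apply (cda (h1 0 h0) i) (cda (hp n) i), sub_eq_zero]
    have a1 : ∀ k, iteratedFDeriv ℝ i (It θ B n k (p (n + k))) 0 = iteratedFDeriv ℝ i (p n) 0 := by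
      intro k
      induction k with
      | zero => rfl
      | succ k ih =>
        have b1 : ContDiffAt ℝ ∞ (Tr θ B (n + k) (p (n + k + 1))) 0 :=
          (h.van hρ (hp (n + k + 1)) van_zero (n + k) 1).1
        have b2 := (h.van hρ (b1.sub (hp (n + k))) (hv (n + k)) n k).2 i hi
        rw [It_sub, ← It_succ', fun_iteratedFDeriv_sub_apply
          (cda (h.van hρ (hp _) van_zero n (k + 1)).1 i) (cda (h.van hρ (hp _) van_zero n k).1 i),
          sub_eq_zero] at b2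
        exact b2.trans ih
    have a2 := h4 i 0 h0
    simp only [a1] at a2
    exact tendsto_nhds_unique a2 tendsto_const_nhds |>.symm ▸ rfl

/-- the bound of a lift depends only on the later jets -/
theorem lift_bd [CompleteSpace F] (hρ : 0 < ρ) (hq : 0 < q) (hq1 : q < 1) (hM : 0 < M) (c : ℕ → ℝ)
    {N : ℕ} {g : ℝ} (hg : 0 < g) (hN : M * q ^ N * g < 1) (j : ℕ) :
    ∃ C : ℝ, 0 ≤ C ∧ ∀ (θ : ℕ → E → E) (B : ℕ → E → F →L[ℝ] F), Dat ρ q M c θ B →
      ∀ p : ℕ → E → F, (∀ k, Van N (fun u => Tr θ B k (p (k + 1)) u - p k u) 0) →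
        (∀ i, ∃ a, ∀ k, Bd ρ i (p k) (a * g ^ k)) → ∀ (n : ℕ) (a : ℝ),
          (∀ k, Bd ρ (j + N) (p (n + k)) (a * g ^ k)) → Bd ρ j (lift θ B p n) (C * a) := by
  obtain ⟨C, h0, hC⟩ := incr (E := E) (F := F) ρ hq hq1 hM c N hg j
  set r := M * q ^ N * g with hr
  have hr0 : 0 ≤ r := by positivity
  have hr1 : 0 ≤ (1 - r)⁻¹ := inv_nonneg.2 (by linarith)
  refine ⟨1 + C * (1 - r)⁻¹, by positivity, fun θ B h p hv hb n a ha u hu => ?_⟩
  obtain ⟨h1, -, -, h4⟩ := lift_spec h hρ hq hq1 hM hg hN hv hb n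
  have ha0 : 0 ≤ a := by simpa using (ha 0 u hu).nonneg
  have a1 : ∀ k, Pb j (It θ B n k (p (n + k))) u (a + C * a * ∑ i ∈ Finset.range k, r ^ i) := by
    intro k
    induction k with
    | zero => simpa [It] using (ha 0 u hu).mono (i := j) (by omega) le_rfl
    | succ k ih =>
      have := ih.add (hC θ B h p hv n a ha k u hu)
      simp only [add_sub_cancel] at this
      exact this.le (by rw [Finset.sum_range_succ]; exact le_of_eq (by ring))
  refine ⟨h1 u hu, fun i hi => le_of_tendsto' (h4 i u hu).norm fun k => ((a1 k).bd i hi).trans ?_⟩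
  have a2 : ∑ i ∈ Finset.range k, r ^ i ≤ (1 - r)⁻¹ := by
    rw [← tsum_geometric_of_lt_one hr0 hN]
    exact (summable_geometric_of_lt_one hr0 hN).sum_le_tsum _ fun _ _ => by positivity
  nlinarith [mul_le_mul_of_nonneg_left a2 (mul_nonneg h0 ha0)]

/-- **Fast jets.** -/
theorem fast (hρ : 0 < ρ) (hq : 0 < q) (hq1 : q < 1) (hM : 0 < M) (c : ℕ → ℝ) {N : ℕ} {γ : ℝ}
    (hN : M * q ^ N ≤ γ) (j : ℕ) :
    ∃ C : ℝ, 0 ≤ C ∧ ∀ (θ : ℕ → E → E) (B : ℕ → E → F →L[ℝ] F), Dat ρ q M c θ B →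
      ∀ (n : ℕ) (s : E → F) (r : ℕ → E → F) (K A : ℝ), Bd ρ (j + N) s K →
        (∀ k ≤ n, Van N (fun u => It θ B k (n - k) s u - r k u) 0) →
        (∀ k ≤ n, Bd ρ (j + N) (r k) (A * γ ^ (n - k))) →
        Bd ρ j (It θ B 0 n s) (C * (n + 1) * γ ^ n * (K + A)) := by
  obtain ⟨C, h0, h⟩ := gain (E := E) (F := F) ρ hq hq1 hM c j N
  obtain ⟨C', h0', h'⟩ := step (E := E) (F := F) ρ hq hq1 hM c (j + N)
  have hγ : 0 < γ := lt_of_lt_of_le (by positivity) hN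
  set D := C * (C' * γ⁻¹ + 1) with hD
  have hD0 : 0 ≤ D := by positivity
  refine ⟨D + C + 1, by positivity, fun θ B hd n s r K A hs hv hr => ?_⟩
  have z0 : (0 : E) ∈ ball (0 : E) ρ := mem_ball_self hρ
  have hK : 0 ≤ K := (hs 0 z0).nonneg
  have hA : 0 ≤ A := by simpa using (hr n le_rfl 0 z0).nonneg
  have hp : ∀ k, (M * q ^ N) ^ k ≤ γ ^ k := fun k => pow_le_pow_left₀ (by positivity) hN k
  have a1 : ∀ k ≤ n, Bd ρ j (It θ B 0 k (r k)) (A * γ ^ n + k * (D * A * γ ^ n)) := by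
    intro k
    induction k with
    | zero => intro _; simpa [It] using (hr 0 (Nat.zero_le _)).mono (i := j) (by omega) le_rfl
    | succ k ih =>
      intro hk
      obtain ⟨m, rfl⟩ : ∃ m, n = k + 1 + m := ⟨n - (k + 1), by omega⟩
      have e1 : k + 1 + m - k = m + 1 := by omega
      have e2 : k + 1 + m - (k + 1) = m := by omega
      have v1 := hv k (by omega)
      have v2 := hv (k + 1) hk
      have r1 := hr k (by omega)
      have r2 := hr (k + 1) hk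
      rw [e1] at v1 r1
      rw [e2] at v2 r2
      have s1 := (hd.van hρ (hs 0 z0).sm van_zero (k + 1) m).1.sub (r2 0 z0).sm
      have s2 := (hd.van hρ (hs 0 z0).sm van_zero k (m + 1)).1.sub (r1 0 z0).sm
      have v3 := hd.van hρ s1 v2 k 1
      have v4 : Van N (fun u => Tr θ B k (r (k + 1)) u - r k u) 0 := by
        refine (v1.sub v3.2 s2 v3.1).congr (Eventually.of_forall fun u => ?_)
        simp only [It, Tr, map_sub]
        abel
      have b1 := h θ B hd 0 k _ _ v4 ((h' θ B hd k _ _ r2).sub r1)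
      have e3 := It_succ' (θ := θ) (B := B) 0 k (r (k + 1))
      rw [Nat.zero_add] at e3
      rw [It_sub, ← e3] at b1
      have b2 := (ih (by omega)).add b1
      simp only [add_sub_cancel] at b2
      refine b2.mono le_rfl ?_
      have b3 : C * (M * q ^ N) ^ k * (C' * (A * γ ^ m) + A * γ ^ (m + 1))
          ≤ C * γ ^ k * (C' * (A * γ ^ m) + A * γ ^ (m + 1)) :=
        mul_le_mul_of_nonneg_right (mul_le_mul_of_nonneg_left (hp k) h0) (by positivity)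
      have b4 : C * γ ^ k * (C' * (A * γ ^ m) + A * γ ^ (m + 1)) = D * A * γ ^ (k + 1 + m) := by
        rw [hD]; field_simp; ring
      push_cast
      linarith
  have v1 := hv n le_rfl
  have r1 := hr n le_rfl
  rw [Nat.sub_self] at v1 r1
  have b1 := h θ B hd 0 n _ _ v1 (hs.sub r1)
  rw [It_sub] at b1
  have b2 := (a1 n le_rfl).add b1
  simp only [It, add_sub_cancel] at b2
  refine b2.mono le_rfl ?_
  have b3 : C * (M * q ^ N) ^ n * (K + A * γ ^ 0) ≤ C * γ ^ n * (K + A) := by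
    rw [pow_zero, mul_one]
    exact mul_le_mul_of_nonneg_right (mul_le_mul_of_nonneg_left (hp n) h0) (by positivity)
  have g0 : 0 ≤ γ ^ n := by positivity
  have n0 : (0 : ℝ) ≤ n := Nat.cast_nonneg n
  have t1 : 0 ≤ γ ^ n * A := by positivity
  have t2 : 0 ≤ γ ^ n * K := by positivity
  nlinarith [mul_nonneg hD0 t1, mul_nonneg hD0 t2, mul_nonneg h0 t1, mul_nonneg h0 t2,
    mul_nonneg n0 t1, mul_nonneg n0 t2, mul_nonneg n0 (mul_nonneg hD0 t2),
    mul_nonneg n0 (mul_nonneg h0 t1), mul_nonneg n0 (mul_nonneg h0 t2)]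

end Vale.Agent.P207Z.Lift
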