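import Vale.Agent.P207Z.An.Lim

/-!
# P207: pointwise bounds of the derivatives of smooth maps
-/

set_option linter.all false

open Set Filter Topology Metric
open scoped ContDiff

noncomputable section

namespace Vale.Agent.P207Z.Lift

variable {E F G H : Type} [NormedAddCommGroup E] [NormedSpace ℝ E] [NormedAddCommGroup F]
  [NormedSpace ℝ F] [NormedAddCommGroup G] [NormedSpace ℝ G] [NormedAddCommGroup H]
  [NormedSpace ℝ H]

/-- `f` is smooth at `x`, and its derivatives of order at most `j` are bounded by `K` at `x` -/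
structure Pb (j : ℕ) (f : E → F) (x : E) (K : ℝ) : Prop where
  sm : ContDiffAt ℝ ∞ f x
  bd : ∀ i ≤ j, ‖iteratedFDeriv ℝ i f x‖ ≤ K

variable {i j : ℕ} {f f' : E → F} {g : E → G} {x : E} {K K' : ℝ}

theorem nat_le_inf (n : ℕ) : (n : WithTop ℕ∞) ≤ ∞ := by exact_mod_cast le_top

theorem cda (h : ContDiffAt ℝ ∞ f x) (n : ℕ) : ContDiffAt ℝ n f x := h.of_le (nat_le_inf n)

theorem exists_open (h : ContDiffAt ℝ ∞ f x) (n : ℕ) :
    ∃ U, IsOpen U ∧ x ∈ U ∧ ContDiffOn ℝ n f U := by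
  obtain ⟨u, hu, h1⟩ := (cda h n).contDiffOn (m := n) le_rfl (by simp)
  exact ⟨interior u, isOpen_interior, mem_interior_iff_mem_nhds.2 hu, h1.mono interior_subset⟩

theorem Pb.norm_le (h : Pb j f x K) : ‖f x‖ ≤ K := by
  simpa using h.bd 0 (Nat.zero_le _)

theorem Pb.nonneg (h : Pb j f x K) : 0 ≤ K := (norm_nonneg _).trans h.norm_le

theorem Pb.mono (h : Pb j f x K) (hi : i ≤ j) (hK : K ≤ K') : Pb i f x K' :=
  ⟨h.sm, fun l hl => (h.bd l (hl.trans hi)).trans hK⟩

theorem Pb.le (h : Pb j f x K) (hK : K ≤ K') : Pb j f x K' := h.mono le_rfl hK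

theorem Pb.congr (h : Pb j f x K) (e : f' =ᶠ[𝓝 x] f) : Pb j f' x K :=
  ⟨h.sm.congr_of_eventuallyEq e, fun l hl => by
    rw [(e.iteratedFDeriv ℝ l).eq_of_nhds]; exact h.bd l hl⟩

theorem pb_zero (h : ContDiffAt ℝ ∞ f x) (hK : ‖f x‖ ≤ K) : Pb 0 f x K :=
  ⟨h, fun l hl => by
    obtain rfl : l = 0 := by omega
    simpa using hK⟩

theorem pb_exists (h : ContDiffAt ℝ ∞ f x) (j : ℕ) : ∃ K, Pb j f x K :=
  ⟨∑ i ∈ Finset.range (j + 1), ‖iteratedFDeriv ℝ i f x‖, h, fun l hl =>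
    Finset.single_le_sum (f := fun i => ‖iteratedFDeriv ℝ i f x‖) (fun _ _ => norm_nonneg _)
      (Finset.mem_range.2 (by omega))⟩

theorem pb_const (c : F) (hK : ‖c‖ ≤ K) : Pb j (fun _ : E => c) x K :=
  ⟨contDiffAt_const, fun l _ => by
    rcases l with _ | l
    · simpa using hK
    · rw [iteratedFDeriv_succ_const]
      simpa using (norm_nonneg _).trans hK⟩

theorem Pb.add (h : Pb j f x K) (h' : Pb j f' x K') : Pb j (fun y => f y + f' y) x (K + K') :=
  ⟨h.sm.add h'.sm, fun l hl => by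
    rw [fun_iteratedFDeriv_add_apply (cda h.sm l) (cda h'.sm l)]
    exact (norm_add_le _ _).trans (add_le_add (h.bd l hl) (h'.bd l hl))⟩

theorem Pb.sub (h : Pb j f x K) (h' : Pb j f' x K') : Pb j (fun y => f y - f' y) x (K + K') :=
  ⟨h.sm.sub h'.sm, fun l hl => by
    rw [fun_iteratedFDeriv_sub_apply (cda h.sm l) (cda h'.sm l)]
    exact (norm_sub_le _ _).trans (add_le_add (h.bd l hl) (h'.bd l hl))⟩

theorem Pb.clm (L : F →L[ℝ] G) (h : Pb j f x K) : Pb j (fun y => L (f y)) x (‖L‖ * K) :=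
  ⟨L.contDiff.contDiffAt.comp x h.sm, fun l hl =>
    (L.norm_iteratedFDeriv_comp_left h.sm (nat_le_inf l)).trans
      (mul_le_mul_of_nonneg_left (h.bd l hl) (norm_nonneg _))⟩

theorem Pb.clm' (L : F →L[ℝ] G) (hL : ‖L‖ ≤ 1) (h : Pb j f x K) : Pb j (fun y => L (f y)) x K :=
  (h.clm L).le (mul_le_of_le_one_left h.nonneg hL)

theorem Pb.smul (c : ℝ) (h : Pb j f x K) : Pb j (fun y => c • f y) x (|c| * K) :=
  ⟨h.sm.const_smul c, fun l hl => by
    rw [iteratedFDeriv_const_smul_apply' (cda h.sm l), norm_smul, Real.norm_eq_abs]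
    exact mul_le_mul_of_nonneg_left (h.bd l hl) (abs_nonneg _)⟩

theorem Pb.sum {ι : Type} (s : Finset ι) {f : ι → E → F} {K : ι → ℝ}
    (h : ∀ a ∈ s, Pb j (f a) x (K a)) : Pb j (fun y => ∑ a ∈ s, f a y) x (∑ a ∈ s, K a) := by
  classical
  induction s using Finset.induction_on with
  | empty => simpa using pb_const (E := E) (j := j) (x := x) (0 : F) (K := 0) (by simp)
  | insert a s ha ih =>
    simp only [Finset.sum_insert ha]
    exact (h a (Finset.mem_insert_self _ _)).add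
      (ih fun b hb => h b (Finset.mem_insert_of_mem hb))

theorem Pb.fderiv (h : Pb (j + 1) f x K) : Pb j (fderiv ℝ f) x K :=
  ⟨h.sm.fderiv_right (m := ∞) le_rfl, fun l hl => by
    rw [norm_iteratedFDeriv_fderiv]; exact h.bd _ (by omega)⟩

theorem pb_succ (h : ContDiffAt ℝ ∞ f x) (h0 : ‖f x‖ ≤ K) (h1 : Pb j (fderiv ℝ f) x K) :
    Pb (j + 1) f x K :=
  ⟨h, fun l hl => by
    rcases l with _ | l
    · simpa using h0
    · rw [← norm_iteratedFDeriv_fderiv]; exact h1.bd l (by omega)⟩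

theorem Pb.bilin (B : F →L[ℝ] G →L[ℝ] H) (h : Pb j f x K) (h' : Pb j g x K') :
    Pb j (fun y => B (f y) (g y)) x (‖B‖ * (2 ^ j * (K * K'))) := by
  refine ⟨(B.contDiff.contDiffAt.comp x h.sm).clm_apply h'.sm, fun l hl => ?_⟩
  obtain ⟨U, hU, hx, h1⟩ := exists_open h.sm l
  obtain ⟨U', hU', hx', h2⟩ := exists_open h'.sm l
  have hO := hU.inter hU'
  have hm : x ∈ U ∩ U' := ⟨hx, hx'⟩
  have h3 := B.norm_iteratedFDerivWithin_le_of_bilinear (h1.mono inter_subset_left)
    (h2.mono inter_subset_right) hO.uniqueDiffOn hm (n := l) le_rfl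
  simp only [iteratedFDerivWithin_of_isOpen _ hO hm] at h3
  refine h3.trans (mul_le_mul_of_nonneg_left ?_ B.opNorm_nonneg)
  have hK := h.nonneg
  have hK' := h'.nonneg
  calc _ ≤ ∑ a ∈ Finset.range (l + 1), (l.choose a : ℝ) * (K * K') := by
        refine Finset.sum_le_sum fun a ha => ?_
        rw [mul_assoc]
        have := Finset.mem_range.1 ha
        exact mul_le_mul_of_nonneg_left (mul_le_mul (h.bd a (by omega)) (h'.bd _ (by omega))
          (norm_nonneg _) hK) (by positivity)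
    _ = 2 ^ l * (K * K') := by
        rw [← Finset.sum_mul, ← Nat.cast_sum, Nat.sum_range_choose]; push_cast; rfl
    _ ≤ _ := mul_le_mul_of_nonneg_right (pow_le_pow_right₀ one_le_two hl) (by positivity)

theorem Pb.bilin' (B : F →L[ℝ] G →L[ℝ] H) (hB : ‖B‖ ≤ 1) (h : Pb j f x K) (h' : Pb j g x K') :
    Pb j (fun y => B (f y) (g y)) x (2 ^ j * (K * K')) :=
  (h.bilin B h').le (mul_le_of_le_one_left (by have := h.nonneg; have := h'.nonneg; positivity) hB)

theorem Pb.app {A : E → F →L[ℝ] G} (h : Pb j A x K) (h' : Pb j f x K') :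
    Pb j (fun y => A y (f y)) x (2 ^ j * (K * K')) :=
  h.bilin' (ContinuousLinearMap.id ℝ (F →L[ℝ] G)) ContinuousLinearMap.norm_id_le h'

theorem Pb.compL {A : E → G →L[ℝ] H} {A' : E → F →L[ℝ] G} (h : Pb j A x K) (h' : Pb j A' x K') :
    Pb j (fun y => A y ∘L A' y) x (2 ^ j * (K * K')) :=
  h.bilin' (ContinuousLinearMap.compL ℝ F G H) (ContinuousLinearMap.norm_compL_le ℝ F G H) h'

theorem Pb.smul' {c : E → ℝ} (h : Pb j c x K) (h' : Pb j f x K') :
    Pb j (fun y => c y • f y) x (2 ^ j * (K * K')) :=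
  h.bilin' (ContinuousLinearMap.lsmul ℝ ℝ) ContinuousLinearMap.opNorm_lsmul_le h'

theorem Pb.mul {c d : E → ℝ} (h : Pb j c x K) (h' : Pb j d x K') :
    Pb j (fun y => c y * d y) x (2 ^ j * (K * K')) := h.smul' h'

theorem Pb.prod (h : Pb j f x K) (h' : Pb j g x K') :
    Pb j (fun y => (f y, g y)) x (K + K') := by
  have := (h.clm' (ContinuousLinearMap.inl ℝ F G) (ContinuousLinearMap.norm_inl_le_one ℝ F G)).add
    (h'.clm' (ContinuousLinearMap.inr ℝ F G) (ContinuousLinearMap.norm_inr_le_one ℝ F G))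
  simpa using this

/-- composition; only the derivatives of positive order of the inner map matter -/
theorem Pb.comp {φ : F → G} {D : ℝ} (h : Pb j φ (f x) K) (hf : ContDiffAt ℝ ∞ f x) (hD : 1 ≤ D)
    (hb : ∀ i, 1 ≤ i → i ≤ j → ‖iteratedFDeriv ℝ i f x‖ ≤ D) :
    Pb j (fun y => φ (f y)) x (j.factorial * K * D ^ j) := by
  refine ⟨h.sm.comp x hf, fun l hl => ?_⟩
  obtain ⟨T, hT, hx, h1⟩ := exists_open h.sm l
  obtain ⟨U, hU, hx', h2⟩ := exists_open hf l
  have hO : IsOpen (U ∩ f ⁻¹' T) := h2.continuousOn.isOpen_inter_preimage hU hT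
  have hm : x ∈ U ∩ f ⁻¹' T := ⟨hx', hx⟩
  have h3 := norm_iteratedFDerivWithin_comp_le (C := K) (D := D) h1 (h2.mono inter_subset_left)
    (n := l) le_rfl hT.uniqueDiffOn hO.uniqueDiffOn (fun y hy => hy.2) hm
    (fun a ha => by rw [iteratedFDerivWithin_of_isOpen _ hT hx]; exact h.bd a (ha.trans hl))
    (fun a h1 ha => by
      rw [iteratedFDerivWithin_of_isOpen _ hO hm]
      exact (hb a h1 (ha.trans hl)).trans (le_self_pow₀ hD (by omega)))
  rw [iteratedFDerivWithin_of_isOpen _ hO hm] at h3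
  refine h3.trans ?_
  have hK := h.nonneg
  have h4 : (l.factorial : ℝ) ≤ j.factorial := by exact_mod_cast Nat.factorial_le hl
  exact mul_le_mul (mul_le_mul_of_nonneg_right h4 hK) (pow_le_pow_right₀ hD hl) (by positivity)
    (by positivity)

theorem Pb.comp' {φ : F → G} {D : ℝ} (h : Pb j φ (f x) K) (hf : Pb j f x D) :
    Pb j (fun y => φ (f y)) x (j.factorial * K * max 1 D ^ j) :=
  h.comp hf.sm (le_max_left _ _) fun i _ hi => (hf.bd i hi).trans (le_max_right _ _)

theorem Pb.comp_fderiv {φ : F → G} {D : ℝ} (h : Pb j φ (f x) K) (hf : ContDiffAt ℝ ∞ f x)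
    (hb : Pb j (_root_.fderiv ℝ f) x D) :
    Pb j (fun y => φ (f y)) x (j.factorial * K * max 1 D ^ j) :=
  h.comp hf (le_max_left _ _) fun i h1 hi => by
    obtain ⟨i, rfl⟩ : ∃ k, i = k + 1 := ⟨i - 1, by omega⟩
    rw [← norm_iteratedFDeriv_fderiv]
    exact (hb.bd i (by omega)).trans (le_max_right _ _)

theorem pb_clm (L : E →L[ℝ] F) (x : E) (j : ℕ) : Pb j L x (‖L‖ * max 1 ‖x‖) := by
  have h1 : ‖L‖ ≤ ‖L‖ * max 1 ‖x‖ := le_mul_of_one_le_right (norm_nonneg _) (le_max_left _ _)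
  have h0 : ‖L x‖ ≤ ‖L‖ * max 1 ‖x‖ :=
    (L.le_opNorm x).trans (mul_le_mul_of_nonneg_left (le_max_right _ _) (norm_nonneg _))
  rcases j with _ | j
  · exact pb_zero L.contDiff.contDiffAt h0
  · refine pb_succ L.contDiff.contDiffAt h0 ?_
    have : _root_.fderiv ℝ L = fun _ => L := funext fun y => L.fderiv
    rw [this]
    exact pb_const L h1

theorem Pb.comp_clm {φ : F → G} (L : E →L[ℝ] F) (h : Pb j φ (L x) K) :
    Pb j (fun y => φ (L y)) x (j.factorial * K * max 1 ‖L‖ ^ j) := by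
  refine h.comp_fderiv L.contDiff.contDiffAt ?_
  have : _root_.fderiv ℝ L = fun _ => L := funext fun y => L.fderiv
  rw [this]
  exact pb_const L le_rfl

/-- vanishing of the derivatives of order less than `N` -/
def Van (N : ℕ) (f : E → F) (x : E) : Prop := ∀ i < N, iteratedFDeriv ℝ i f x = 0

variable {N : ℕ}

theorem van_zero : Van 0 f x := fun _ h => absurd h (by omega)

theorem Van.mono {N' : ℕ} (h : Van N f x) (hN : N' ≤ N) : Van N' f x :=
  fun i hi => h i (by omega)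

theorem van_iff (hf : ContDiffAt ℝ ∞ f x) : Van (N + 1) f x ↔ Pb N f x 0 :=
  ⟨fun h => ⟨hf, fun i hi => by rw [h i (by omega)]; simp⟩,
    fun h i hi => norm_le_zero_iff.1 (h.bd i (by omega))⟩

theorem Van.congr (h : Van N f x) (e : f' =ᶠ[𝓝 x] f) : Van N f' x := fun i hi => by
  rw [(e.iteratedFDeriv ℝ i).eq_of_nhds]; exact h i hi

theorem Van.fderiv (h : Van N f x) : Van (N - 1) (fderiv ℝ f) x := fun i hi =>
  norm_eq_zero.1 (by rw [norm_iteratedFDeriv_fderiv, h _ (by omega), norm_zero])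

theorem Van.val (h : Van (N + 1) f x) : f x = 0 := by
  have := congrArg norm (h 0 (by omega))
  simpa using this

theorem Van.add (h : Van N f x) (h' : Van N f' x) (hf : ContDiffAt ℝ ∞ f x)
    (hf' : ContDiffAt ℝ ∞ f' x) : Van N (fun y => f y + f' y) x := fun i hi => by
  rw [fun_iteratedFDeriv_add_apply (cda hf i) (cda hf' i), h i hi, h' i hi, add_zero]

theorem Van.sub (h : Van N f x) (h' : Van N f' x) (hf : ContDiffAt ℝ ∞ f x)
    (hf' : ContDiffAt ℝ ∞ f' x) : Van N (fun y => f y - f' y) x := fun i hi => by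
  rw [fun_iteratedFDeriv_sub_apply (cda hf i) (cda hf' i), h i hi, h' i hi, sub_zero]

theorem Van.clm (L : F →L[ℝ] G) (h : Van N f x) (hf : ContDiffAt ℝ ∞ f x) :
    Van N (fun y => L (f y)) x := by
  rcases N with _ | N
  · exact van_zero
  · have := ((van_iff hf).1 h).clm L
    rw [mul_zero] at this
    exact (van_iff this.sm).2 this

theorem Van.app {A : E → F →L[ℝ] G} (hA : ContDiffAt ℝ ∞ A x) (h : Van N f x)
    (hf : ContDiffAt ℝ ∞ f x) : Van N (fun y => A y (f y)) x := by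
  rcases N with _ | N
  · exact van_zero
  · obtain ⟨K, hK⟩ := pb_exists hA N
    have := hK.app ((van_iff hf).1 h)
    rw [mul_zero, mul_zero] at this
    exact (van_iff this.sm).2 this

theorem Van.comp {φ : F → G} (h : Van N φ (f x)) (hφ : ContDiffAt ℝ ∞ φ (f x))
    (hf : ContDiffAt ℝ ∞ f x) : Van N (fun y => φ (f y)) x := by
  rcases N with _ | N
  · exact van_zero
  · obtain ⟨K, hK⟩ := pb_exists hf N
    have := ((van_iff hφ).1 h).comp' hK
    rw [mul_zero, zero_mul] at this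
    exact (van_iff this.sm).2 this

/-- a map which vanishes to the order `N` at the centre of a ball -/
theorem Van.norm_le {ρ : ℝ} : ∀ (N : ℕ) {F : Type} [NormedAddCommGroup F] [NormedSpace ℝ F]
    {f : E → F}, Van N f x → (∀ u ∈ ball x ρ, Pb N f u K) →
    ∀ u ∈ ball x ρ, ‖f u‖ ≤ K * ‖u - x‖ ^ N := by
  intro N
  induction N with
  | zero => intro F _ _ f _ h u hu; simpa using (h u hu).norm_le
  | succ N ih =>
    intro F _ _ f hv h u hu
    have h1 := ih (f := _root_.fderiv ℝ f) hv.fderiv fun u hu => (h u hu).fderiv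
    have hs : closedBall x ‖u - x‖ ⊆ ball x ρ :=
      closedBall_subset_ball (by rwa [mem_ball, dist_eq_norm] at hu)
    have hK := (h u hu).nonneg
    have h2 := (convex_closedBall x ‖u - x‖).norm_image_sub_le_of_norm_fderiv_le
      (𝕜 := ℝ) (f := f) (C := K * ‖u - x‖ ^ N)
      (fun y hy => (h y (hs hy)).sm.differentiableAt (by simp))
      (fun y hy => (h1 y (hs hy)).trans (mul_le_mul_of_nonneg_left
        (pow_le_pow_left₀ (norm_nonneg _) (by rwa [mem_closedBall, dist_eq_norm] at hy) _) hK))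
      (mem_closedBall_self (norm_nonneg _)) (by rw [mem_closedBall, dist_eq_norm] : u ∈ _)
    rw [hv.val, sub_zero] at h2
    rw [pow_succ, ← mul_assoc]
    exact h2

end Vale.Agent.P207Z.Lift
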