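import Vale.Agent.P207Z.Lift.Defs

/-!
# P207: linear cocycles over contractions of a ball: distortion
-/

set_option linter.all false

open Set Filter Topology Metric
open scoped ContDiff

noncomputable section

namespace Vale.Agent.P207Z.Lift

variable {E F G : Type} [NormedAddCommGroup E] [NormedSpace ℝ E] [NormedAddCommGroup F]
  [NormedSpace ℝ F] [NormedAddCommGroup G] [NormedSpace ℝ G] {ρ q M : ℝ} {c : ℕ → ℝ}
  {θ : ℕ → E → E} {B : ℕ → E → F →L[ℝ] F}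

theorem Bd.mono {i j : ℕ} {s : E → F} {K K' : ℝ} (h : Bd ρ j s K) (hi : i ≤ j) (hK : K ≤ K') :
    Bd ρ i s K' := fun u hu => (h u hu).mono hi hK

theorem Bd.congr {j : ℕ} {s s' : E → F} {K : ℝ} (h : Bd ρ j s K)
    (e : ∀ u ∈ ball (0 : E) ρ, s' u = s u) : Bd ρ j s' K := fun u hu =>
  (h u hu).congr (by filter_upwards [isOpen_ball.mem_nhds hu] with v hv using e v hv)

theorem Dat.norm_le (h : Dat ρ q M c θ B) (n : ℕ) {u : E} (hu : u ∈ ball (0 : E) ρ) :
    ‖θ n u‖ ≤ q * ‖u‖ := by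
  have h0 : (0 : E) ∈ ball (0 : E) ρ := mem_ball_self (pos_of_mem_ball hu)
  have := (convex_ball (0 : E) ρ).norm_image_sub_le_of_norm_fderiv_le (𝕜 := ℝ) (f := θ n) (C := q)
    (fun y hy => (h.sm n y hy).differentiableAt (by simp)) (h.der n) h0 hu
  simpa [h.zero] using this

theorem Dat.maps (h : Dat ρ q M c θ B) (hq : q ≤ 1) (n : ℕ) {u : E} (hu : u ∈ ball (0 : E) ρ) :
    θ n u ∈ ball (0 : E) ρ := by
  have h1 := h.norm_le n hu
  rw [mem_ball_zero_iff] at hu ⊢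
  nlinarith [norm_nonneg u]

theorem It_succ' (k n : ℕ) (s : E → F) :
    It θ B k (n + 1) s = It θ B k n (Tr θ B (k + n) s) := by
  induction n generalizing k with
  | zero => rfl
  | succ n ih =>
    show Tr θ B k (It θ B (k + 1) (n + 1) s) = Tr θ B k (It θ B (k + 1) n _)
    rw [ih, show k + 1 + n = k + (n + 1) by omega]

theorem It_add (k n m : ℕ) (s : E → F) :
    It θ B k (n + m) s = It θ B k n (It θ B (k + n) m s) := by
  induction n generalizing k with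
  | zero => simp [It]
  | succ n ih =>
    rw [show n + 1 + m = (n + m) + 1 by omega]
    show Tr θ B k (It θ B (k + 1) (n + m) s) = Tr θ B k (It θ B (k + 1) n _)
    rw [ih, show k + 1 + n = k + (n + 1) by omega]

theorem It_sub (k n : ℕ) (s s' : E → F) :
    It θ B k n (fun u => s u - s' u) = fun u => It θ B k n s u - It θ B k n s' u := by
  induction n generalizing k with
  | zero => rfl
  | succ n ih =>
    funext u
    simp only [It, Tr, ih, map_sub]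

theorem Dat.it_congr (h : Dat ρ q M c θ B) (hq : q ≤ 1) {s s' : E → F}
    (e : ∀ u ∈ ball (0 : E) ρ, s u = s' u) (k n : ℕ) :
    ∀ u ∈ ball (0 : E) ρ, It θ B k n s u = It θ B k n s' u := by
  induction n generalizing k with
  | zero => exact e
  | succ n ih =>
    intro u hu
    simp only [It, Tr, ih (k + 1) _ (h.maps hq k hu)]

theorem Dat.van (h : Dat ρ q M c θ B) (hρ : 0 < ρ) {N : ℕ} {s : E → F} (hs : ContDiffAt ℝ ∞ s 0)
    (hv : Van N s 0) (k n : ℕ) : ContDiffAt ℝ ∞ (It θ B k n s) 0 ∧ Van N (It θ B k n s) 0 := by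
  induction n generalizing k with
  | zero => exact ⟨hs, hv⟩
  | succ n ih =>
    obtain ⟨h1, h2⟩ := ih (k + 1)
    have h0 : (0 : E) ∈ ball (0 : E) ρ := mem_ball_self hρ
    rw [← h.zero k] at h1 h2
    have hB := (h.bB k 0 0 h0).sm
    have h3 := h1.comp 0 (h.sm k 0 h0)
    exact ⟨hB.clm_apply h3, (h2.comp h1 (h.sm k 0 h0)).app hB h3⟩

theorem Dat.it_sm (h : Dat ρ q M c θ B) (hq : q ≤ 1) {s : E → F}
    (hs : ∀ u ∈ ball (0 : E) ρ, ContDiffAt ℝ ∞ s u) (k n : ℕ) :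
    ∀ u ∈ ball (0 : E) ρ, ContDiffAt ℝ ∞ (It θ B k n s) u := by
  induction n generalizing k with
  | zero => exact hs
  | succ n ih =>
    intro u hu
    exact (h.bB k 0 u hu).sm.clm_apply ((ih (k + 1) _ (h.maps hq k hu)).comp u (h.sm k u hu))

theorem Dat.it_norm (h : Dat ρ q M c θ B) (hq : 0 < q) (hq1 : q ≤ 1) (hM : 0 < M) {N : ℕ}
    {s : E → F} {K : ℝ} (hK : 0 ≤ K) (hs : ∀ u ∈ ball (0 : E) ρ, ‖s u‖ ≤ K * ‖u‖ ^ N) (k n : ℕ) :
    ∀ u ∈ ball (0 : E) ρ, ‖It θ B k n s u‖ ≤ (M * q ^ N) ^ n * K * ‖u‖ ^ N := by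
  induction n generalizing k with
  | zero => simpa [It] using hs
  | succ n ih =>
    intro u hu
    have h1 := ih (k + 1) _ (h.maps hq1 k hu)
    have h2 : ‖θ k u‖ ^ N ≤ (q * ‖u‖) ^ N := pow_le_pow_left₀ (norm_nonneg _) (h.norm_le k hu) _
    have h3 := h1.trans (mul_le_mul_of_nonneg_left h2 (by positivity))
    refine ((B k u).le_of_opNorm_le (h.b0 k u hu) _).trans ?_
    refine (mul_le_mul_of_nonneg_left h3 hM.le).trans_eq ?_
    rw [mul_pow q, pow_succ]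
    ring

section gen

variable {H : Type} [NormedAddCommGroup H] [NormedSpace ℝ H] {j : ℕ} {x : E} {K : ℝ}

theorem Pb.bil1 {f : E → F} (L : F →L[ℝ] G →L[ℝ] H) (hL : ‖L‖ ≤ 1) (h : Pb j f x K) :
    Pb j (fun y => L (f y)) x K := h.clm' L hL

theorem Pb.bil2 {f : E → G} (L : F →L[ℝ] G →L[ℝ] H) (hL : ‖L‖ ≤ 1) (h : Pb j f x K) :
    Pb j (fun y => L.flip (f y)) x K := h.clm' L.flip (L.opNorm_flip.trans_le hL)

theorem Pb.post {A : E → F →L[ℝ] G} (h : Pb j A x K) (H : Type) [NormedAddCommGroup H]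
    [NormedSpace ℝ H] : Pb j (fun y => ContinuousLinearMap.compL ℝ H F G (A y)) x K :=
  h.bil1 (ContinuousLinearMap.compL ℝ H F G) (ContinuousLinearMap.norm_compL_le ℝ H F G)

theorem Pb.pre {A : E → H →L[ℝ] F} (h : Pb j A x K) (G : Type) [NormedAddCommGroup G]
    [NormedSpace ℝ G] : Pb j (fun y => (ContinuousLinearMap.compL ℝ H F G).flip (A y)) x K :=
  h.bil2 (ContinuousLinearMap.compL ℝ H F G) (ContinuousLinearMap.norm_compL_le ℝ H F G)

theorem Pb.lin {f : E → F} (L : F → G) (h1 : ∀ a b, L (a + b) = L a + L b)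
    (h2 : ∀ (c : ℝ) a, L (c • a) = c • L a) (hL : ∀ v, ‖L v‖ ≤ ‖v‖) (h : Pb j f x K) :
    Pb j (fun y => L (f y)) x K :=
  h.clm' ((IsLinearMap.mk' L ⟨h1, h2⟩).mkContinuous 1 fun v => by simpa using hL v)
    (LinearMap.mkContinuous_norm_le _ zero_le_one _)

theorem Pb.flip {A : E → F →L[ℝ] G →L[ℝ] H} (h : Pb j A x K) : Pb j (fun y => (A y).flip) x K :=
  h.lin (fun a : F →L[ℝ] G →L[ℝ] H => a.flip) (fun a b => a.flip_add b)
    (fun c a => ContinuousLinearMap.flip_smul c a) fun a => a.opNorm_flip.le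

theorem Pb.sand {F' G' : Type} [NormedAddCommGroup F'] [NormedSpace ℝ F'] [NormedAddCommGroup G']
    [NormedSpace ℝ G'] {A : E → F →L[ℝ] G} (h : Pb j A x K) (P : G →L[ℝ] G') (Q : F' →L[ℝ] F)
    (hP : ‖P‖ ≤ 1) (hQ : ‖Q‖ ≤ 1) : Pb j (fun y => P ∘L A y ∘L Q) x (4 ^ j * K) :=
  ((pb_const P hP).compL (h.compL (pb_const Q hQ))).le (by
    rw [one_mul, mul_one, ← mul_assoc, ← mul_pow]; norm_num)

end gen

/-- the cocycle on the derivatives -/
def B2 (θ : ℕ → E → E) (B : ℕ → E → F →L[ℝ] F) (n : ℕ) (u : E) : (E →L[ℝ] F) →L[ℝ] (E →L[ℝ] F) :=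
  ContinuousLinearMap.compL ℝ E F F (B n u) ∘L
    (ContinuousLinearMap.compL ℝ E E F).flip (fderiv ℝ (θ n) u)

theorem B2_apply (n : ℕ) (u : E) (l : E →L[ℝ] F) :
    B2 θ B n u l = B n u ∘L l ∘L fderiv ℝ (θ n) u := rfl

theorem Dat.two (h : Dat ρ q M c θ B) (hM : 0 < M) :
    Dat ρ q (M * q) (fun j => max (c j) (2 ^ j * (c j * c j))) θ (B2 θ B) where
  zero := h.zero
  sm := h.sm
  der := h.der
  bθ n j := (h.bθ n j).mono le_rfl (le_max_left _ _)
  b0 n u hu := by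
    have hq : 0 ≤ q := (norm_nonneg _).trans (h.der n u hu)
    refine ContinuousLinearMap.opNorm_le_bound _ (by positivity) fun l => ?_
    rw [B2_apply]
    refine (ContinuousLinearMap.opNorm_comp_le _ _).trans ?_
    have h1 := (ContinuousLinearMap.opNorm_comp_le l (fderiv ℝ (θ n) u)).trans
      (mul_le_mul_of_nonneg_left (h.der n u hu) (norm_nonneg _))
    refine (mul_le_mul (h.b0 n u hu) h1 (norm_nonneg _) hM.le).trans_eq (by ring)
  bB n j u hu := (((h.bB n j u hu).post E).compL ((h.bθ n j u hu).pre F)).le (le_max_right _ _)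

/-- the cocycle on the jets of order one, for the norm `max ‖v‖ (ε ‖l‖)` -/
def B1 (ε : ℝ) (θ : ℕ → E → E) (B : ℕ → E → F →L[ℝ] F) (n : ℕ) (u : E) :
    (F × (E →L[ℝ] F)) →L[ℝ] (F × (E →L[ℝ] F)) :=
  ContinuousLinearMap.inl ℝ F (E →L[ℝ] F) ∘L B n u ∘L ContinuousLinearMap.fst ℝ F (E →L[ℝ] F)
    + ε • (ContinuousLinearMap.inr ℝ F (E →L[ℝ] F) ∘L (fderiv ℝ (B n) u).flip ∘L
      ContinuousLinearMap.fst ℝ F (E →L[ℝ] F))
    + ContinuousLinearMap.inr ℝ F (E →L[ℝ] F) ∘L B2 θ B n u ∘L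
      ContinuousLinearMap.snd ℝ F (E →L[ℝ] F)

theorem B1_apply (ε : ℝ) (n : ℕ) (u : E) (a : F × (E →L[ℝ] F)) : B1 ε θ B n u a =
    (B n u a.1, ε • (fderiv ℝ (B n) u).flip a.1 + B n u ∘L a.2 ∘L fderiv ℝ (θ n) u) := by
  refine Prod.ext ?_ ?_
  · simp [B1]
  · simp [B1, B2_apply]

theorem Dat.one (h : Dat ρ q M c θ B) (hM : 0 < M) {ε : ℝ} (hε : 0 < ε)
    (hc : ε * |c 1| ≤ M * (1 - q)) :
    Dat ρ q M (fun j => max (c j) (4 ^ j * c j + |ε| * (4 ^ j * c (j + 1))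
      + 4 ^ j * max (c j) (2 ^ j * (c j * c j)))) θ (B1 ε θ B) where
  zero := h.zero
  sm := h.sm
  der := h.der
  bθ n j := (h.bθ n j).mono le_rfl (le_max_left _ _)
  b0 n u hu := by
    refine ContinuousLinearMap.opNorm_le_bound _ hM.le fun a => ?_
    rw [B1_apply, Prod.norm_mk]
    have h1 : ‖a.1‖ ≤ ‖a‖ := norm_fst_le a
    have h2 : ‖a.2‖ ≤ ‖a‖ := norm_snd_le a
    refine max_le (((B n u).le_of_opNorm_le (h.b0 n u hu) _).trans
      (mul_le_mul_of_nonneg_left h1 hM.le)) ((norm_add_le _ _).trans ?_)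
    have h3 : ‖fderiv ℝ (B n) u‖ ≤ |c 1| := (h.bB n 1 u hu).fderiv.norm_le.trans (le_abs_self _)
    have h4 : ‖(fderiv ℝ (B n) u).flip a.1‖ ≤ |c 1| * ‖a‖ :=
      ((fderiv ℝ (B n) u).flip.le_opNorm _).trans (mul_le_mul
        ((ContinuousLinearMap.opNorm_flip _).trans_le h3) h1 (norm_nonneg _) (abs_nonneg _))
    have hq : 0 ≤ q := (norm_nonneg _).trans (h.der n u hu)
    have h5 := ((B2 θ B n u).le_of_opNorm_le ((h.two hM).b0 n u hu) a.2).trans
      (mul_le_mul_of_nonneg_left h2 (by positivity))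
    rw [B2_apply] at h5
    rw [norm_smul, Real.norm_eq_abs, abs_of_pos hε]
    nlinarith [mul_le_mul_of_nonneg_left h4 hε.le, mul_le_mul_of_nonneg_right hc (norm_nonneg a)]
  bB n j u hu := by
    have a1 := (h.bB n j u hu).sand (ContinuousLinearMap.inl ℝ F (E →L[ℝ] F))
      (ContinuousLinearMap.fst ℝ F (E →L[ℝ] F)) (ContinuousLinearMap.norm_inl_le_one ℝ F _)
      (ContinuousLinearMap.norm_fst_le ℝ F _)
    have a2 := ((h.bB n (j + 1) u hu).fderiv.flip.sand (ContinuousLinearMap.inr ℝ F (E →L[ℝ] F))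
      (ContinuousLinearMap.fst ℝ F (E →L[ℝ] F)) (ContinuousLinearMap.norm_inr_le_one ℝ F _)
        (ContinuousLinearMap.norm_fst_le ℝ F _)).smul ε
    have a3 := ((h.two hM).bB n j u hu).sand (ContinuousLinearMap.inr ℝ F (E →L[ℝ] F))
      (ContinuousLinearMap.snd ℝ F (E →L[ℝ] F)) (ContinuousLinearMap.norm_inr_le_one ℝ F _)
        (ContinuousLinearMap.norm_snd_le ℝ F _)
    exact ((a1.add a2).add a3).le (le_max_right _ _)

theorem Dat.fderiv_it (h : Dat ρ q M c θ B) (hq : q ≤ 1) {ε : ℝ} (hε : ε ≠ 0) {s : E → F}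
    (hs : ∀ u ∈ ball (0 : E) ρ, ContDiffAt ℝ ∞ s u) (k n : ℕ) : ∀ u ∈ ball (0 : E) ρ,
      (It θ (B1 ε θ B) k n (fun v => (s v, 0)) u).1 = It θ B k n s u ∧
      fderiv ℝ (It θ B k n s) u = ε⁻¹ • (It θ (B1 ε θ B) k n (fun v => (s v, 0)) u).2
        + It θ (B2 θ B) k n (fderiv ℝ s) u := by
  induction n generalizing k with
  | zero => intro u _; simp [It]
  | succ n ih =>
    intro u hu
    obtain ⟨h1, h2⟩ := ih (k + 1) _ (h.maps hq k hu)
    have hd := ((h.bB k 0 u hu).sm.differentiableAt (by simp)).hasFDerivAt.clm_apply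
      (((h.it_sm hq hs (k + 1) n _ (h.maps hq k hu)).differentiableAt (by simp)).hasFDerivAt.comp u
        ((h.sm k u hu).differentiableAt (by simp)).hasFDerivAt)
    refine ⟨by simp only [It, Tr, B1_apply, h1], ?_⟩
    have e : It θ B k (n + 1) s = fun u => B k u ((It θ B (k + 1) n s ∘ θ k) u) := rfl
    rw [e, hd.fderiv, h2]
    simp only [It, Tr, B1_apply, h1, B2_apply, Function.comp_apply, smul_add, smul_smul,
      inv_mul_cancel₀ hε, one_smul, ContinuousLinearMap.add_comp, ContinuousLinearMap.comp_add,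
      ContinuousLinearMap.smul_comp, ContinuousLinearMap.comp_smul]
    abel

theorem gain_aux (ρ : ℝ) (hq : 0 < q) (hq1 : q < 1) (j : ℕ) :
    ∀ (N : ℕ) {F : Type} [NormedAddCommGroup F] [NormedSpace ℝ F] {M : ℝ}, 0 < M → ∀ c : ℕ → ℝ,
    ∃ C : ℝ, 0 ≤ C ∧ ∀ (θ : ℕ → E → E) (B : ℕ → E → F →L[ℝ] F), Dat ρ q M c θ B →
      ∀ (k n : ℕ) (s : E → F) (K : ℝ), Van N s 0 → Bd ρ (j + N) s K →
        Bd ρ j (It θ B k n s) (C * (M * q ^ N) ^ n * K) := by
  have h0 : ∀ (N : ℕ) {F : Type} [NormedAddCommGroup F] [NormedSpace ℝ F] {M : ℝ}, 0 < M →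
      ∀ (c : ℕ → ℝ) (θ : ℕ → E → E) (B : ℕ → E → F →L[ℝ] F), Dat ρ q M c θ B →
      ∀ (k n : ℕ) (s : E → F) (K : ℝ), Van N s 0 → Bd ρ N s K →
        Bd ρ 0 (It θ B k n s) (|ρ| ^ N * (M * q ^ N) ^ n * K) := by
    intro N F _ _ M hM c θ B h k n s K hv hb u hu
    have hK := (hb u hu).nonneg
    refine pb_zero (h.it_sm hq1.le (fun v hv => (hb v hv).sm) k n u hu) ?_
    have h1 := h.it_norm hq hq1.le hM hK (N := N) (s := s)
      (fun v hv' => by simpa using hv.norm_le N hb v hv') k n u hu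
    have h2 : ‖u‖ ^ N ≤ |ρ| ^ N := pow_le_pow_left₀ (norm_nonneg _)
      ((mem_ball_zero_iff.1 hu).le.trans (le_abs_self _)) _
    exact (h1.trans (mul_le_mul_of_nonneg_left h2 (by positivity))).trans_eq (by ring)
  induction j with
  | zero =>
    intro N F _ _ M hM c
    exact ⟨|ρ| ^ N, by positivity, fun θ B h k n s K hv hb =>
      h0 N hM c θ B h k n s K hv (hb.mono (by omega) le_rfl)⟩
  | succ j ih =>
    intro N F _ _ M hM c
    have h1q : 0 < 1 - q := by linarith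
    set ε : ℝ := M * (1 - q) / (|c 1| + 1) with hε
    have hε0 : 0 < ε := by positivity
    have hc : ε * |c 1| ≤ M * (1 - q) := by
      rw [hε, div_mul_eq_mul_div, div_le_iff₀ (by positivity)]
      nlinarith [mul_pos hM h1q]
    obtain ⟨C1, h10, h1⟩ := ih N (F := F × (E →L[ℝ] F)) hM _
    obtain ⟨C2, h20, h2⟩ := ih (N - 1) (F := E →L[ℝ] F) (mul_pos hM hq) _
    refine ⟨|ρ| ^ N + |ε⁻¹| * C1 + C2, by positivity, fun θ B h k n s K hv hb u hu => ?_⟩
    have hK := (hb u hu).nonneg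
    have hs : ∀ v ∈ ball (0 : E) ρ, ContDiffAt ℝ ∞ s v := fun v hv => (hb v hv).sm
    have hρ : (0 : E) ∈ ball (0 : E) ρ := mem_ball_self (pos_of_mem_ball hu)
    have a0 := h0 N hM c θ B h k n s K hv (hb.mono (by omega) le_rfl) u hu
    have a1 := h1 θ _ (h.one hM hε0 hc) k n (fun v => (s v, 0)) K
      (hv.clm (ContinuousLinearMap.inl ℝ F (E →L[ℝ] F)) (hs 0 hρ))
      (fun v hv => ((hb v hv).mono (by omega) le_rfl).clm' (ContinuousLinearMap.inl ℝ F (E →L[ℝ] F))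
        (ContinuousLinearMap.norm_inl_le_one ℝ F _)) u hu
    have a2 := h2 θ _ (h.two hM) k n (fderiv ℝ s) K hv.fderiv
      (fun v hv => ((hb v hv).mono (by omega) le_rfl).fderiv) u hu
    have a3 := ((a1.clm' (ContinuousLinearMap.snd ℝ F (E →L[ℝ] F))
      (ContinuousLinearMap.norm_snd_le ℝ F _)).smul ε⁻¹).add a2
    have a4 : (M * q * q ^ (N - 1)) ^ n ≤ (M * q ^ N) ^ n := by
      refine pow_le_pow_left₀ (by positivity) ?_ _
      rw [mul_assoc, ← pow_succ']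
      exact mul_le_mul_of_nonneg_left (pow_le_pow_of_le_one hq.le hq1.le (by omega)) hM.le
    have a5 : 0 ≤ (M * q ^ N) ^ n * K := by positivity
    refine pb_succ a0.sm (a0.norm_le.trans ?_) ((a3.congr ?_).le ?_)
    · nlinarith [mul_nonneg (mul_nonneg (abs_nonneg ε⁻¹) h10) a5, mul_nonneg h20 a5]
    · filter_upwards [isOpen_ball.mem_nhds hu] with v hv
      exact (h.fderiv_it hq1.le hε0.ne' hs k n v hv).2
    · nlinarith [mul_nonneg (pow_nonneg (abs_nonneg ρ) N) a5,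
        mul_le_mul_of_nonneg_left (mul_le_mul_of_nonneg_right a4 hK) h20]

/-- **Distortion**, with the gain `q ^ N` on the sections which vanish to the order `N`. -/
theorem gain (ρ : ℝ) (hq : 0 < q) (hq1 : q < 1) (hM : 0 < M) (c : ℕ → ℝ) (j N : ℕ) :
    ∃ C : ℝ, 0 ≤ C ∧ ∀ (θ : ℕ → E → E) (B : ℕ → E → F →L[ℝ] F), Dat ρ q M c θ B →
      ∀ (k n : ℕ) (s : E → F) (K : ℝ), Van N s 0 → Bd ρ (j + N) s K →
        Bd ρ j (It θ B k n s) (C * (M * q ^ N) ^ n * K) := gain_aux ρ hq hq1 j N hM c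

end Vale.Agent.P207Z.Lift
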